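import Vale.Agent.P076.H200.RSU
import Vale.Agent.P076.H732.FinDefs

/-!
# P076 / H200 : the ring theorem on integer grids (`H732.StRSG`) from `P118.OF.StRS` (helper200)
-/

set_option autoImplicit false

namespace Vale.Agent.P076.H200

open Set Vale.Agent.P118.OF Vale.Agent.P118.OF.Ras Vale.Agent.P076.H732

theorem two_le {x y : ℝ} (h : x ≤ y) : (2:ℝ) ^ x ≤ (2:ℝ) ^ y := Real.rpow_le_rpow_of_exponent_le one_le_two h

theorem two_pos (x : ℝ) : 0 < (2:ℝ) ^ x := Real.rpow_pos_of_pos _root_.two_pos x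

/-- exponentials beat linear functions -/
theorem big (C c : ℝ) (hC : 0 ≤ C) (hc : 0 < c) : ∃ x₀ : ℝ, 1 ≤ x₀ ∧ ∀ x, x₀ ≤ x → C * (x + 1) ≤ 2 ^ (c * x) := by
  have hl : 0 < Real.log 2 := Real.log_pos one_lt_two
  set a : ℝ := c * Real.log 2 with ha
  have ha0 : 0 < a := by positivity
  refine ⟨max 1 (4 * C / a ^ 2), le_max_left _ _, fun x hx => ?_⟩
  have hx1 : 1 ≤ x := (le_max_left _ _).trans hx
  have hx2 : 4 * C / a ^ 2 ≤ x := (le_max_right _ _).trans hx
  have hx3 : 4 * C ≤ x * a ^ 2 := by rwa [div_le_iff₀ (by positivity)] at hx2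
  have h1 : (2:ℝ) ^ (c * x) = Real.exp (a * x) := by
    rw [Real.rpow_def_of_pos _root_.two_pos]
    congr 1
    rw [ha]; ring
  have h2 := Real.quadratic_le_exp_of_nonneg (x := a * x) (by positivity)
  rw [h1]
  have h3 : C * (x + 1) ≤ (a * x) ^ 2 / 2 := by nlinarith
  have h4 : 0 ≤ a * x := by positivity
  linarith

/-! ### regular sets -/

theorem gcard {kp E : ℝ} {N m : ℕ} {X : Finset ℤ} (h : GReg kp E N m X) :
    (X.card : ℝ) ≤ 2 ^ (kp * (N * m) + E * (N * m)) := by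
  classical
  have h1 := h.cov N le_rfl
  simp only [Nat.sub_self, zero_mul, pow_zero, Int.ediv_one, Finset.image_id'] at h1
  refine h1.trans (two_le (le_of_eq ?_))
  ring

theorem gcnt {kp E : ℝ} {N m : ℕ} {X : Finset ℤ} (h : GReg kp E N m X) (hm : 0 < m) (hkp : 0 ≤ kp)
    (c r : ℝ) (hr : 0 ≤ r) :
    ((X.filter fun x : ℤ => |(x:ℝ) - c| ≤ (2:ℝ) ^ r).card : ℝ) ≤ 3 * 2 ^ (kp * r + kp * m + E * (N * m)) := by
  classical
  have hm' : (0:ℝ) < m := by exact_mod_cast hm
  rcases le_total r (N * m) with hrn | hrn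
  · set l : ℕ := ⌈r / m⌉₊ with hl
    have hlN : l ≤ N := by
      rw [hl, Nat.ceil_le, div_le_iff₀ hm']
      exact hrn
    have hl1 : r ≤ l * m := by
      have := Nat.le_ceil (r / m)
      rwa [div_le_iff₀ hm'] at this
    have hl2 : (l : ℝ) * m ≤ r + m := by
      have := (Nat.ceil_lt_add_one (div_nonneg hr hm'.le)).le
      have h2 := mul_le_mul_of_nonneg_right this hm'.le
      rw [add_mul, div_mul_cancel₀ _ hm'.ne', one_mul] at h2
      exact h2
    have hj : N - (N - l) = l := Nat.sub_sub_self hlN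
    set q : ℤ := ⌊c / ((2:ℝ) ^ (l * m))⌋ with hq
    have hD : (0:ℝ) < (2:ℝ) ^ (l * m) := by positivity
    have hsub : (X.filter fun x : ℤ => |(x:ℝ) - c| ≤ (2:ℝ) ^ r) ⊆
        (X.filter fun x : ℤ => x / 2 ^ (l * m) = q - 1) ∪ (X.filter fun x : ℤ => x / 2 ^ (l * m) = q) ∪
          (X.filter fun x : ℤ => x / 2 ^ (l * m) = q + 1) := by
      intro x hx
      obtain ⟨hxX, hxc⟩ := Finset.mem_filter.1 hx
      have h2 : (2:ℝ) ^ r ≤ (2:ℝ) ^ (l * m) := by
        rw [← Real.rpow_natCast 2 (l * m)]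
        refine two_le ?_
        push_cast
        exact hl1
      have h3 := abs_le.1 (hxc.trans h2)
      have e1 : x / 2 ^ (l * m) = ⌊(x:ℝ) / (2:ℝ) ^ (l * m)⌋ := by
        have : ((2:ℝ) ^ (l * m)) = (((2:ℤ) ^ (l * m) : ℤ) : ℝ) := by push_cast; rfl
        rw [this]
        have h5 : ⌊(x:ℝ) / (((2:ℤ) ^ (l * m) : ℤ) : ℝ)⌋ = x / ((2:ℤ) ^ (l * m)) := by
          rw [Int.floor_eq_iff]
          have hD' : (0:ℤ) < 2 ^ (l * m) := by positivity
          have hD2 : (0:ℝ) < (((2:ℤ) ^ (l * m) : ℤ) : ℝ) := by exact_mod_cast hD'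
          constructor
          · rw [le_div_iff₀ hD2]
            exact_mod_cast Int.ediv_mul_le x hD'.ne'
          · rw [div_lt_iff₀ hD2]
            exact_mod_cast Int.lt_ediv_add_one_mul_self x hD'
        exact h5.symm
      have l1 : c / (2:ℝ) ^ (l * m) - 1 ≤ (x:ℝ) / (2:ℝ) ^ (l * m) := by
        rw [sub_le_iff_le_add, div_add_one hD.ne']
        exact div_le_div_of_nonneg_right (by linarith) hD.le
      have l2 : (x:ℝ) / (2:ℝ) ^ (l * m) ≤ c / (2:ℝ) ^ (l * m) + 1 := by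
        rw [div_add_one hD.ne']
        exact div_le_div_of_nonneg_right (by linarith) hD.le
      have l3 : q - 1 ≤ ⌊(x:ℝ) / (2:ℝ) ^ (l * m)⌋ := by
        rw [Int.le_floor]
        push_cast
        have := Int.floor_le (c / (2:ℝ) ^ (l * m))
        linarith
      have l4 : ⌊(x:ℝ) / (2:ℝ) ^ (l * m)⌋ < q + 2 := by
        rw [Int.floor_lt]
        push_cast
        have := Int.lt_floor_add_one (c / (2:ℝ) ^ (l * m))
        linarith
      rw [← e1] at l3 l4
      simp only [Finset.mem_union, Finset.mem_filter]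
      have l5 : x / 2 ^ (l * m) = q - 1 ∨ x / 2 ^ (l * m) = q ∨ x / 2 ^ (l * m) = q + 1 := by omega
      rcases l5 with l5 | l5 | l5
      · exact Or.inl (Or.inl ⟨hxX, l5⟩)
      · exact Or.inl (Or.inr ⟨hxX, l5⟩)
      · exact Or.inr ⟨hxX, l5⟩
    have hb : ∀ e : ℤ, ((X.filter fun x : ℤ => x / 2 ^ (l * m) = e).card : ℝ) ≤
        2 ^ (kp * r + kp * m + E * (N * m)) := by
      intro e
      have h1 := h.up (N - l) (Nat.sub_le _ _) e
      rw [hj] at h1
      refine h1.trans (two_le ?_)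
      have h2 : ((N : ℝ) - ((N - l : ℕ) : ℝ)) = l := by
        rw [Nat.cast_sub hlN]; ring
      rw [h2]
      have h3 : kp * (l * m) ≤ kp * (r + m) := mul_le_mul_of_nonneg_left hl2 hkp
      nlinarith
    have h1 : ((X.filter fun x : ℤ => |(x:ℝ) - c| ≤ (2:ℝ) ^ r).card : ℝ) ≤
        ((X.filter fun x : ℤ => x / 2 ^ (l * m) = q - 1).card : ℝ) + ((X.filter fun x : ℤ => x / 2 ^ (l * m) = q).card : ℝ) +
          ((X.filter fun x : ℤ => x / 2 ^ (l * m) = q + 1).card : ℝ) := by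
      have h2 := (Finset.card_le_card hsub).trans ((Finset.card_union_le _ _).trans
        (Nat.add_le_add_right (Finset.card_union_le _ _) _))
      exact_mod_cast h2
    linarith [hb (q - 1), hb q, hb (q + 1)]
  · have h1 : ((X.filter fun x : ℤ => |(x:ℝ) - c| ≤ (2:ℝ) ^ r).card : ℝ) ≤ X.card := by
      exact_mod_cast Finset.card_filter_le _ _
    have h2 := gcard h
    have h3 : (2:ℝ) ^ (kp * (N * m) + E * (N * m)) ≤ 2 ^ (kp * r + kp * m + E * (N * m)) := by
      refine two_le ?_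
      have := mul_le_mul_of_nonneg_left hrn hkp
      have := mul_nonneg hkp hm'.le
      linarith
    have := two_pos (kp * r + kp * m + E * (N * m))
    linarith

theorem gcover {kp E : ℝ} {N m : ℕ} {X : Finset ℤ} (h : GReg kp E N m X) (hm : 0 < m) (hkp : 0 ≤ kp)
    (r : ℝ) (hr : 0 ≤ r) :
    ∃ Z : Finset ℤ, (Z.card : ℝ) ≤ 2 ^ (kp * max (N * m - r) 0 + kp * m + E * (N * m)) ∧
      ∀ x ∈ X, ∃ z ∈ Z, |(x:ℝ) - z| ≤ 2 ^ r := by
  classical
  have hm' : (0:ℝ) < m := by exact_mod_cast hm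
  set l : ℕ := min ⌊r / m⌋₊ N with hl
  have hlN : l ≤ N := min_le_right _ _
  have hl1 : (l : ℝ) * m ≤ r := by
    have h1 : (l : ℝ) ≤ r / m := (Nat.cast_le.2 (min_le_left _ _)).trans (Nat.floor_le (div_nonneg hr hm'.le))
    rwa [le_div_iff₀ hm'] at h1
  have hj : N - (N - l) = l := Nat.sub_sub_self hlN
  have h1 := h.cov (N - l) (Nat.sub_le _ _)
  rw [hj] at h1
  refine ⟨(X.image fun x => x / 2 ^ (l * m)).image fun q => q * 2 ^ (l * m), ?_, ?_⟩
  · refine le_trans ?_ (h1.trans (two_le ?_))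
    · exact_mod_cast Finset.card_image_le
    · have h2 : (((N - l : ℕ) : ℝ)) * m ≤ max (N * m - r) 0 + m := by
        rw [Nat.cast_sub hlN]
        rcases le_or_gt N ⌊r / m⌋₊ with h3 | h3
        · have : l = N := min_eq_right h3
          rw [this, sub_self, zero_mul]
          have := le_max_right ((N:ℝ) * m - r) 0
          linarith
        · have : l = ⌊r / m⌋₊ := min_eq_left h3.le
          have h4 := Nat.lt_floor_add_one (r / m)
          rw [← this, div_lt_iff₀ hm', add_mul, one_mul] at h4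
          have := le_max_left ((N:ℝ) * m - r) 0
          nlinarith
      have h3 := mul_le_mul_of_nonneg_left h2 hkp
      nlinarith
  · intro x hx
    refine ⟨x / 2 ^ (l * m) * 2 ^ (l * m), Finset.mem_image.2 ⟨_, Finset.mem_image.2 ⟨x, hx, rfl⟩, rfl⟩, ?_⟩
    have hD' : (0:ℤ) < 2 ^ (l * m) := by positivity
    have e1 : x / 2 ^ (l * m) * 2 ^ (l * m) ≤ x := Int.ediv_mul_le x hD'.ne'
    have e2 : x < (x / 2 ^ (l * m) + 1) * 2 ^ (l * m) := Int.lt_ediv_add_one_mul_self x hD'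
    have e3 : |(x:ℝ) - ((x / 2 ^ (l * m) * 2 ^ (l * m) : ℤ) : ℝ)| ≤ (((2:ℤ) ^ (l * m) : ℤ) : ℝ) := by
      rw [← Int.cast_sub, ← Int.cast_abs]
      have : |x - x / 2 ^ (l * m) * 2 ^ (l * m)| ≤ 2 ^ (l * m) := by
        rw [abs_le]
        constructor
        · linarith
        · linarith
      exact_mod_cast this
    refine e3.trans ?_
    have e4 : (((2:ℤ) ^ (l * m) : ℤ) : ℝ) = (2:ℝ) ^ ((l:ℝ) * m) := by
      push_cast
      rw [← Real.rpow_natCast 2 (l * m)]
      push_cast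
      rfl
    rw [e4]
    exact two_le hl1

/-! ### multipliers -/

open Classical in
/-- one multiplier for each cell of size `2 ^ (-n)`, with comparable weights -/
theorem mult {ι : Type} {sg E n m : ℝ} (hsg : 0 < sg) (hE : 0 < E) (hn : 0 ≤ n) (hm : 0 < m) (N : ℕ) (hnN : n = N * m)
    (J : Finset ι) (al : ι → ℝ) (hJ : J.Nonempty)
    (h1 : ∀ i ∈ J, |al i| ≤ (2:ℝ) ^ (E * n))
    (h2 : ∀ j ≤ N, ∀ x : ℝ, ((J.filter fun i => |al i - x| ≤ (2:ℝ) ^ (-((j : ℝ) * m))).card : ℝ) ≤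
      (2:ℝ) ^ ((-(sg * j) + E * N) * m) * J.card) :
    ∃ A : Finset ℝ, A.Nonempty ∧ (∀ a ∈ A, ∃ i ∈ J, al i = a) ∧
      ∀ x t : ℝ, (2:ℝ) ^ (-((1 + E) * n)) ≤ t → t ≤ 1 → (nb A x t : ℝ) ≤
        4 * ((1 + E) * n + 6) * 2 ^ (sg * (E * n + 1) + sg * m + E * n) * t ^ sg * A.card := by
  set k : ι → ℤ := fun i => ⌊al i * 2 ^ n⌋ with hk
  set Kc : Finset ℤ := J.image k with hKc
  set W : ℤ → Finset ι := fun q => J.filter fun i => k i = q with hW
  have hJc : (0:ℝ) < J.card := by exact_mod_cast hJ.card_pos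
  have h2n : 0 < (2:ℝ) ^ n := two_pos n
  set M : ℝ := 2 ^ ((1 + E) * n + 3) with hM
  have hM0 : 0 < M := two_pos _
  -- number of cells
  have hcard : (Kc.card : ℝ) ≤ M := by
    set Q : ℤ := ⌈(2:ℝ) ^ ((1 + E) * n)⌉ with hQ
    have hQ0 : (0:ℝ) < (2:ℝ) ^ ((1 + E) * n) := two_pos _
    have hQ1 : 1 ≤ Q := by
      have : 0 < Q := Int.ceil_pos.2 hQ0
      omega
    have hsub : Kc ⊆ Finset.Icc (-Q - 1) Q := by
      intro q hq
      obtain ⟨i, hi, rfl⟩ := Finset.mem_image.1 hq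
      have h3 : |al i * 2 ^ n| ≤ (2:ℝ) ^ ((1 + E) * n) := by
        rw [abs_mul, abs_of_pos h2n, add_mul, one_mul, add_comm, Real.rpow_add _root_.two_pos]
        exact mul_le_mul_of_nonneg_right (h1 i hi) h2n.le
      have h4 := abs_le.1 h3
      have h5 := Int.le_ceil ((2:ℝ) ^ ((1 + E) * n))
      rw [Finset.mem_Icc]
      constructor
      · have : -Q ≤ k i := by
          rw [hk, Int.le_floor]
          push_cast
          linarith
        omega
      · have : (k i : ℝ) ≤ Q := (Int.floor_le _).trans (h4.2.trans h5)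
        exact_mod_cast this
    have h3 := Finset.card_le_card hsub
    rw [Int.card_Icc] at h3
    have h4 : ((Q + 1 - (-Q - 1)).toNat : ℝ) = 2 * Q + 2 := by
      have : ((Q + 1 - (-Q - 1)).toNat : ℤ) = 2 * Q + 2 := by
        rw [Int.toNat_of_nonneg (by omega)]; ring
      exact_mod_cast this
    have h5 : (Kc.card : ℝ) ≤ 2 * Q + 2 := by
      rw [← h4]
      exact_mod_cast h3
    have h6 : (Q : ℝ) < (2:ℝ) ^ ((1 + E) * n) + 1 := Int.ceil_lt_add_one _
    have h7 : (1:ℝ) ≤ (2:ℝ) ^ ((1 + E) * n) := Real.one_le_rpow one_le_two (by positivity)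
    have h8 : M = 8 * (2:ℝ) ^ ((1 + E) * n) := by
      rw [hM, Real.rpow_add _root_.two_pos]
      norm_num
      ring
    rw [h8]
    linarith
  have hsum : ∑ q ∈ Kc, ((W q).card : ℝ) = J.card := by
    have := Finset.card_eq_sum_card_image k J
    exact_mod_cast this.symm
  set w₀ : ℝ := J.card / (2 * M) with hw0
  have hw0p : 0 < w₀ := by positivity
  set Kc' : Finset ℤ := Kc.filter fun q => w₀ ≤ ((W q).card : ℝ) with hKc'
  have hsum' : (J.card : ℝ) / 2 ≤ ∑ q ∈ Kc', ((W q).card : ℝ) := by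
    have h3 := Finset.sum_filter_add_sum_filter_not Kc (fun q => w₀ ≤ ((W q).card : ℝ)) (fun q => ((W q).card : ℝ))
    have h4 : ∑ q ∈ Kc.filter (fun q => ¬ w₀ ≤ ((W q).card : ℝ)), ((W q).card : ℝ) ≤ J.card / 2 := by
      calc ∑ q ∈ Kc.filter (fun q => ¬ w₀ ≤ ((W q).card : ℝ)), ((W q).card : ℝ)
          ≤ ∑ q ∈ Kc.filter (fun q => ¬ w₀ ≤ ((W q).card : ℝ)), w₀ :=
            Finset.sum_le_sum fun q hq => (not_le.1 (Finset.mem_filter.1 hq).2).le
        _ = (Kc.filter (fun q => ¬ w₀ ≤ ((W q).card : ℝ))).card * w₀ := by rw [Finset.sum_const, nsmul_eq_mul]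
        _ ≤ M * w₀ := by
            refine mul_le_mul_of_nonneg_right (le_trans ?_ hcard) hw0p.le
            exact_mod_cast Finset.card_filter_le _ _
        _ = J.card / 2 := by rw [hw0]; field_simp
    rw [hsum] at h3
    have h5 : ∑ q ∈ Kc.filter (fun q => w₀ ≤ ((W q).card : ℝ)), ((W q).card : ℝ) = ∑ q ∈ Kc', ((W q).card : ℝ) := rfl
    linarith
  -- classes
  set cl : ℤ → ℕ := fun q => ⌊Real.logb 2 (J.card / (W q).card)⌋₊ with hcl
  set Lm : ℕ := ⌊(1 + E) * n + 4⌋₊ with hLm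
  have hLm1 : (Lm : ℝ) ≤ (1 + E) * n + 4 := Nat.floor_le (by positivity)
  have hWpos : ∀ q ∈ Kc', (0:ℝ) < (W q).card := fun q hq => hw0p.trans_le (Finset.mem_filter.1 hq).2
  have hWle : ∀ q, ((W q).card : ℝ) ≤ J.card := fun q => by exact_mod_cast Finset.card_filter_le _ _
  have hmaps : ∀ q ∈ Kc', cl q ∈ Finset.range (Lm + 1) := by
    intro q hq
    rw [Finset.mem_range, Nat.lt_succ_iff]
    refine Nat.floor_le_floor ?_
    have h3 := (Finset.mem_filter.1 hq).2
    have h4 : (J.card : ℝ) / (W q).card ≤ 2 * M := by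
      rw [div_le_iff₀ (hWpos q hq)]
      rw [hw0, div_le_iff₀ (by positivity)] at h3
      linarith
    calc Real.logb 2 (J.card / (W q).card) ≤ Real.logb 2 (2 * M) :=
          Real.logb_le_logb_of_le one_lt_two (div_pos hJc (hWpos q hq)) h4
      _ = (1 + E) * n + 4 := by
          have : 2 * M = 2 ^ ((1 + E) * n + 4) := by
            rw [hM, show (1 + E) * n + 4 = 1 + ((1 + E) * n + 3) by ring,
              Real.rpow_add _root_.two_pos 1 ((1 + E) * n + 3), Real.rpow_one]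
          rw [this, Real.logb_rpow _root_.two_pos (by norm_num)]
  obtain ⟨l, hl, hlsum⟩ : ∃ l ∈ Finset.range (Lm + 1), (J.card : ℝ) / 2 / (Lm + 1) ≤
      ∑ q ∈ Kc'.filter (fun q => cl q = l), ((W q).card : ℝ) := by
    by_contra hcon
    push Not at hcon
    have h3 : ∑ l ∈ Finset.range (Lm + 1), ∑ q ∈ Kc'.filter (fun q => cl q = l), ((W q).card : ℝ) =
        ∑ q ∈ Kc', ((W q).card : ℝ) := Finset.sum_fiberwise_of_maps_to hmaps _
    have h4 : ∑ l ∈ Finset.range (Lm + 1), ∑ q ∈ Kc'.filter (fun q => cl q = l), ((W q).card : ℝ) <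
        ∑ l ∈ Finset.range (Lm + 1), (J.card : ℝ) / 2 / (Lm + 1) :=
      Finset.sum_lt_sum_of_nonempty ⟨0, by simp⟩ hcon
    rw [Finset.sum_const, Finset.card_range, nsmul_eq_mul, h3] at h4
    have h5 : ((Lm + 1 : ℕ) : ℝ) * ((J.card : ℝ) / 2 / (Lm + 1)) = J.card / 2 := by
      push_cast
      field_simp
    linarith
  set Kl : Finset ℤ := Kc'.filter (fun q => cl q = l) with hKl
  have hWl : ∀ q ∈ Kl, ((W q).card : ℝ) ≤ J.card / 2 ^ l ∧ (J.card : ℝ) / 2 ^ (l + 1) ≤ (W q).card := by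
    intro q hq
    obtain ⟨hq1, hq2⟩ := Finset.mem_filter.1 hq
    have hp := hWpos q hq1
    have h3 : 1 ≤ (J.card : ℝ) / (W q).card := by rw [le_div_iff₀ hp, one_mul]; exact hWle q
    have h4 : 0 ≤ Real.logb 2 (J.card / (W q).card) := Real.logb_nonneg one_lt_two h3
    have h5 := Nat.floor_le h4
    have h6 := Nat.lt_floor_add_one (Real.logb 2 (J.card / (W q).card))
    have h7 : ⌊Real.logb 2 (J.card / (W q).card)⌋₊ = l := hq2
    rw [h7] at h5 h6
    have h8 : (2:ℝ) ^ (Real.logb 2 (J.card / (W q).card)) = J.card / (W q).card :=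
      Real.rpow_logb _root_.two_pos (by norm_num) (div_pos hJc hp)
    have h9 : (2:ℝ) ^ l ≤ J.card / (W q).card := by
      rw [← h8, ← Real.rpow_natCast]
      exact two_le h5
    have h10 : (J.card : ℝ) / (W q).card ≤ 2 ^ (l + 1) := by
      rw [← h8, ← Real.rpow_natCast]
      refine two_le ?_
      push_cast
      exact h6.le
    rw [le_div_iff₀ hp] at h9
    rw [div_le_iff₀ hp] at h10
    constructor
    · rw [le_div_iff₀ (by positivity)]
      linarith
    · rw [div_le_iff₀ (by positivity)]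
      linarith
  have hKlne : Kl.Nonempty := by
    rw [Finset.nonempty_iff_ne_empty]
    intro h3
    rw [h3, Finset.sum_empty] at hlsum
    have : (0:ℝ) < (J.card : ℝ) / 2 / (Lm + 1) := by positivity
    linarith
  have hKlcard : (2:ℝ) ^ l ≤ 2 * (Lm + 1) * Kl.card := by
    have h3 : ∑ q ∈ Kl, ((W q).card : ℝ) ≤ Kl.card * (J.card / 2 ^ l) := by
      rw [← nsmul_eq_mul, ← Finset.sum_const]
      exact Finset.sum_le_sum fun q hq => (hWl q hq).1
    have h4 := hlsum.trans h3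
    have h5 : (0:ℝ) < (Lm : ℝ) + 1 := by positivity
    have h6 : (0:ℝ) < 2 ^ l := by positivity
    rw [div_div, div_le_iff₀ (by positivity)] at h4
    have h7 : (Kl.card : ℝ) * (J.card / 2 ^ l) * (2 * ((Lm : ℝ) + 1)) = J.card * (2 * (Lm + 1) * Kl.card / 2 ^ l) := by
      field_simp
    rw [h7] at h4
    have h8 : (1:ℝ) ≤ 2 * (Lm + 1) * Kl.card / 2 ^ l := by
      by_contra hcon
      push Not at hcon
      have := mul_lt_mul_of_pos_left hcon hJc
      linarith
    rwa [le_div_iff₀ h6, one_mul] at h8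
  -- representatives
  have hrep : ∀ q ∈ Kl, ∃ i ∈ J, k i = q := fun q hq => by
    have h3 := (Finset.mem_filter.1 (Finset.mem_filter.1 hq).1).1
    obtain ⟨i, hi, hiq⟩ := Finset.mem_image.1 h3
    exact ⟨i, hi, hiq⟩
  have : Nonempty ι := ⟨hJ.choose⟩
  choose! rp hrpJ hrpk using hrep
  have hinj : Set.InjOn (fun q => al (rp q)) Kl := by
    intro q hq q' hq' hqq
    have h3 : k (rp q) = k (rp q') := by
      show ⌊al (rp q) * 2 ^ n⌋ = ⌊al (rp q') * 2 ^ n⌋
      rw [show al (rp q) = al (rp q') from hqq]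
    rw [hrpk q (Finset.mem_coe.1 hq), hrpk q' (Finset.mem_coe.1 hq')] at h3
    exact h3
  refine ⟨Kl.image fun q => al (rp q), hKlne.image _, ?_, ?_⟩
  · intro a ha
    obtain ⟨q, hq, rfl⟩ := Finset.mem_image.1 ha
    exact ⟨rp q, hrpJ q hq, rfl⟩
  · intro x t ht ht1
    have ht0 : 0 < t := (two_pos _).trans_le ht
    rw [Finset.card_image_of_injOn hinj]
    -- the weights
    set Kx : Finset ℤ := Kl.filter fun q => |al (rp q) - x| ≤ t with hKx
    have hnb : (nb (Kl.image fun q => al (rp q)) x t : ℝ) ≤ Kx.card := by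
      unfold nb
      rw [Finset.filter_image]
      refine Nat.cast_le.2 (Finset.card_image_le.trans (Finset.card_le_card fun q hq => ?_))
      obtain ⟨hq1, hq2⟩ := Finset.mem_filter.1 hq
      refine Finset.mem_filter.2 ⟨hq1, ?_⟩
      rw [← Real.dist_eq, dist_comm]
      exact hq2
    set s : ℝ := t + 2 ^ (-n) with hs
    have hs0 : 0 < s := add_pos ht0 (two_pos _)
    have hF : (Kx.card : ℝ) * (J.card / 2 ^ (l + 1)) ≤ ((J.filter fun i => |al i - x| ≤ s).card : ℝ) := by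
      have h3 : (Kx.biUnion W) ⊆ J.filter fun i => |al i - x| ≤ s := by
        intro i hi
        obtain ⟨q, hq, hiq⟩ := Finset.mem_biUnion.1 hi
        obtain ⟨hiJ, hik⟩ := Finset.mem_filter.1 hiq
        obtain ⟨hqK, hqx⟩ := Finset.mem_filter.1 hq
        refine Finset.mem_filter.2 ⟨hiJ, ?_⟩
        have h4 : k i = k (rp q) := by rw [hik, hrpk q hqK]
        have h5 : |al i * 2 ^ n - al (rp q) * 2 ^ n| < 1 := Int.abs_sub_lt_one_of_floor_eq_floor h4
        have h6 : |al i - al (rp q)| ≤ 2 ^ (-n) := by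
          rw [← sub_mul, abs_mul, abs_of_pos h2n] at h5
          rw [Real.rpow_neg zero_le_two, ← one_div, le_div_iff₀ h2n]
          exact h5.le
        calc |al i - x| = |(al (rp q) - x) + (al i - al (rp q))| := by congr 1; ring
          _ ≤ |al (rp q) - x| + |al i - al (rp q)| := abs_add_le _ _
          _ ≤ s := by rw [hs]; linarith
      have h4 : (Kx.biUnion W).card = ∑ q ∈ Kx, (W q).card := by
        refine Finset.card_biUnion fun q _ q' _ hqq => ?_
        rw [Function.onFun, Finset.disjoint_left]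
        intro i hi hi'
        exact hqq ((Finset.mem_filter.1 hi).2.symm.trans (Finset.mem_filter.1 hi').2)
      have h5 : (Kx.card : ℝ) * (J.card / 2 ^ (l + 1)) ≤ ∑ q ∈ Kx, ((W q).card : ℝ) := by
        rw [← nsmul_eq_mul, ← Finset.sum_const]
        exact Finset.sum_le_sum fun q hq => (hWl q (Finset.mem_filter.1 hq).1).2
      refine h5.trans ?_
      have h6 := Finset.card_le_card h3
      rw [h4] at h6
      exact_mod_cast h6
    have hFs : ((J.filter fun i => |al i - x| ≤ s).card : ℝ) ≤ s ^ sg * 2 ^ (sg * m + E * n) * J.card := by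
      rcases le_or_gt 1 s with h3 | h3
      · have h4 : ((J.filter fun i => |al i - x| ≤ s).card : ℝ) ≤ J.card := by exact_mod_cast Finset.card_filter_le _ _
        have h5 : (1:ℝ) ≤ s ^ sg := Real.one_le_rpow h3 hsg.le
        have h6 : (1:ℝ) ≤ 2 ^ (sg * m + E * n) := Real.one_le_rpow one_le_two (by positivity)
        have h7 : (1:ℝ) ≤ s ^ sg * 2 ^ (sg * m + E * n) := one_le_mul_of_one_le_of_one_le h5 h6
        have := mul_le_mul_of_nonneg_right h7 hJc.le
        linarith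
      · set u : ℝ := -Real.logb 2 s with hu
        have hu0 : 0 ≤ u := by
          have := Real.logb_neg one_lt_two hs0 h3
          linarith
        have hsu : s = 2 ^ (-u) := by
          rw [hu, neg_neg, Real.rpow_logb _root_.two_pos (by norm_num) hs0]
        have hun : u ≤ n := by
          have h4 : (2:ℝ) ^ (-n) ≤ 2 ^ (-u) := by
            rw [← hsu, hs]
            linarith
          have h5 := (Real.rpow_le_rpow_left_iff one_lt_two).1 h4
          linarith
        set j : ℕ := ⌊u / m⌋₊ with hj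
        have hj1 : (j : ℝ) * m ≤ u := by
          have := Nat.floor_le (div_nonneg hu0 hm.le)
          rwa [le_div_iff₀ hm] at this
        have hj2 : u ≤ (j : ℝ) * m + m := by
          have := (Nat.lt_floor_add_one (u / m)).le
          rw [div_le_iff₀ hm, add_mul, one_mul] at this
          exact this
        have hjN : j ≤ N := by
          have h4 : (j : ℝ) * m ≤ N * m := hj1.trans (hun.trans (le_of_eq hnN))
          exact_mod_cast le_of_mul_le_mul_right h4 hm
        have h4 := h2 j hjN x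
        have h5 : (J.filter fun i => |al i - x| ≤ s).card ≤ (J.filter fun i => |al i - x| ≤ (2:ℝ) ^ (-((j : ℝ) * m))).card := by
          refine Finset.card_le_card fun i hi => ?_
          obtain ⟨hi1, hi2⟩ := Finset.mem_filter.1 hi
          refine Finset.mem_filter.2 ⟨hi1, hi2.trans ?_⟩
          rw [hsu]
          exact two_le (by linarith)
        have h6 : ((J.filter fun i => |al i - x| ≤ s).card : ℝ) ≤ (2:ℝ) ^ ((-(sg * j) + E * N) * m) * J.card :=
          le_trans (by exact_mod_cast h5) h4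
        refine h6.trans (mul_le_mul_of_nonneg_right ?_ hJc.le)
        rw [hsu, ← Real.rpow_mul zero_le_two, ← Real.rpow_add _root_.two_pos]
        refine two_le ?_
        rw [hnN]
        have := mul_le_mul_of_nonneg_left hj2 hsg.le
        nlinarith
    have hst : s ^ sg ≤ t ^ sg * 2 ^ (sg * (E * n + 1)) := by
      have h3 : s ≤ t * 2 ^ (E * n + 1) := by
        have h4 : (2:ℝ) ^ (-n) ≤ t * 2 ^ (E * n) := by
          calc (2:ℝ) ^ (-n) = 2 ^ (-((1 + E) * n)) * 2 ^ (E * n) := by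
                rw [← Real.rpow_add _root_.two_pos]; congr 1; ring
            _ ≤ t * 2 ^ (E * n) := mul_le_mul_of_nonneg_right ht (two_pos _).le
        have h5 : (1:ℝ) ≤ 2 ^ (E * n) := Real.one_le_rpow one_le_two (by positivity)
        have h6 : t * 2 ^ (E * n + 1) = t * 2 ^ (E * n) + t * 2 ^ (E * n) := by
          rw [Real.rpow_add _root_.two_pos, Real.rpow_one]; ring
        have h7 : t ≤ t * 2 ^ (E * n) := le_mul_of_one_le_right ht0.le h5
        rw [h6, hs]
        linarith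
      calc s ^ sg ≤ (t * 2 ^ (E * n + 1)) ^ sg := Real.rpow_le_rpow hs0.le h3 hsg.le
        _ = t ^ sg * 2 ^ (sg * (E * n + 1)) := by
            rw [Real.mul_rpow ht0.le (two_pos _).le, ← Real.rpow_mul zero_le_two]
            congr 2; ring
    have h3 : (Kx.card : ℝ) ≤ 2 ^ (l + 1) * (s ^ sg * 2 ^ (sg * m + E * n)) := by
      have h4 := hF.trans hFs
      have h5 : (Kx.card : ℝ) * (J.card / 2 ^ (l + 1)) = Kx.card / 2 ^ (l + 1) * J.card := by ring
      rw [h5] at h4
      have h6 := le_of_mul_le_mul_right h4 hJc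
      rw [div_le_iff₀ (by positivity)] at h6
      linarith
    refine hnb.trans (h3.trans ?_)
    have h4 : (2:ℝ) ^ (l + 1) ≤ 4 * ((1 + E) * n + 6) * Kl.card := by
      rw [pow_succ]
      have h5 : (0:ℝ) ≤ Kl.card := Nat.cast_nonneg _
      nlinarith
    have h5 : s ^ sg * 2 ^ (sg * m + E * n) ≤ t ^ sg * 2 ^ (sg * (E * n + 1)) * 2 ^ (sg * m + E * n) :=
      mul_le_mul_of_nonneg_right hst (two_pos _).le
    have h6 : 0 ≤ s ^ sg * 2 ^ (sg * m + E * n) := by positivity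
    have h7 : (0:ℝ) ≤ 4 * ((1 + E) * n + 6) * Kl.card := by positivity
    calc (2:ℝ) ^ (l + 1) * (s ^ sg * 2 ^ (sg * m + E * n))
        ≤ (4 * ((1 + E) * n + 6) * Kl.card) * (t ^ sg * 2 ^ (sg * (E * n + 1)) * 2 ^ (sg * m + E * n)) :=
          mul_le_mul h4 h5 h6 h7
      _ = 4 * ((1 + E) * n + 6) * 2 ^ (sg * (E * n + 1) + sg * m + E * n) * t ^ sg * Kl.card := by
          rw [show sg * (E * n + 1) + sg * m + E * n = sg * (E * n + 1) + (sg * m + E * n) by ring,
            Real.rpow_add _root_.two_pos (sg * (E * n + 1)) (sg * m + E * n)]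
          ring

/-! ### the theorem -/

theorem img_reg {kp E c n : ℝ} {N m : ℕ} {X : Finset ℤ} (h : GReg kp E N m X) (hm : 0 < m) (hkp : 0 ≤ kp) (hkp1 : kp ≤ 1)
    (hE : 0 < E) (hc : 0 < c) (hn : n = N * m) (h1 : 3 * E ≤ c) (h2 : 4 * m ≤ c * n) (h3 : 8 ≤ c * n) :
    RegR kp c (2 ^ (-((1 + E) * n))) (X.image fun x : ℤ => (x:ℝ) * 2 ^ (-((1 + E) * n))) := by
  classical
  have hm' : (0:ℝ) < m := by exact_mod_cast hm
  have hn0 : 0 < n := by
    by_contra hcon
    push Not at hcon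
    have : c * n ≤ 0 := mul_nonpos_of_nonneg_of_nonpos hc.le hcon
    linarith
  set δ : ℝ := 2 ^ (-((1 + E) * n)) with hδ
  have hδ0 : 0 < δ := two_pos _
  have hδc : δ ^ (-c) = 2 ^ (c * ((1 + E) * n)) := by
    rw [hδ, ← Real.rpow_mul zero_le_two]
    congr 1; ring
  have hinj : Function.Injective fun x : ℤ => (x:ℝ) * δ := fun x y hxy => by
    have := mul_right_cancel₀ hδ0.ne' hxy
    exact_mod_cast this
  have hEn : 0 ≤ c * E * n := by positivity
  have hEn' : E * n ≤ c * n / 3 := by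
    have := mul_le_mul_of_nonneg_right h1 hn0.le
    linarith
  have hkm : kp * m ≤ c * n / 4 := by
    have h4 : kp * m ≤ 1 * m := mul_le_mul_of_nonneg_right hkp1 hm'.le
    linarith
  refine ⟨?_, ?_, ?_, ?_⟩
  · intro y hy
    obtain ⟨x, hx, rfl⟩ := Finset.mem_image.1 hy
    have h4 := h.bd x hx
    rw [abs_mul, abs_of_pos hδ0]
    calc |(x:ℝ)| * δ ≤ 2 ^ ((1 + E) * N * m) * δ := mul_le_mul_of_nonneg_right h4 hδ0.le
      _ = 1 := by
          rw [hδ, ← Real.rpow_add _root_.two_pos, hn]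
          rw [show (1 + E) * N * m + -((1 + E) * (N * m)) = 0 by ring, Real.rpow_zero]
      _ ≤ 2 := one_le_two
  · intro y hy z hz hyz
    obtain ⟨x, hx, rfl⟩ := Finset.mem_image.1 hy
    obtain ⟨x', hx', rfl⟩ := Finset.mem_image.1 hz
    have h4 : x ≠ x' := fun e => hyz (by rw [e])
    have h5 : (1:ℝ) ≤ |(x:ℝ) - x'| := by
      have : 1 ≤ |x - x'| := Int.one_le_abs (sub_ne_zero.2 h4)
      exact_mod_cast this
    rw [← sub_mul, abs_mul, abs_of_pos hδ0]
    exact le_mul_of_one_le_left hδ0.le h5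
  · intro y t ht ht1
    have ht0 : 0 < t := hδ0.trans_le ht
    have htδ : 1 ≤ t / δ := by rwa [le_div_iff₀ hδ0, one_mul]
    set r : ℝ := Real.logb 2 (t / δ) with hr
    have hr0 : 0 ≤ r := Real.logb_nonneg one_lt_two htδ
    have hrt : (2:ℝ) ^ r = t / δ := Real.rpow_logb _root_.two_pos (by norm_num) (by linarith)
    have h4 : (nb (X.image fun x : ℤ => (x:ℝ) * δ) y t : ℝ) ≤
        ((X.filter fun x : ℤ => |(x:ℝ) - y / δ| ≤ (2:ℝ) ^ r).card : ℝ) := by
      unfold nb
      rw [Finset.filter_image]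
      refine Nat.cast_le.2 (Finset.card_image_le.trans (Finset.card_le_card fun x hx => ?_))
      obtain ⟨hx1, hx2⟩ := Finset.mem_filter.1 hx
      refine Finset.mem_filter.2 ⟨hx1, ?_⟩
      rw [hrt, le_div_iff₀ hδ0]
      have h5 : |(x:ℝ) - y / δ| * δ = |(x:ℝ) * δ - y| := by
        nth_rewrite 2 [← abs_of_pos hδ0]
        rw [← abs_mul, sub_mul, div_mul_cancel₀ _ hδ0.ne']
      rw [h5, ← Real.dist_eq, dist_comm]
      exact hx2
    refine h4.trans ((gcnt h hm hkp (y / δ) r hr0).trans ?_)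
    rw [← hrt, hδc, ← Real.rpow_mul zero_le_two]
    have h5 : (3:ℝ) ≤ 2 ^ (2:ℝ) := by norm_num
    calc 3 * (2:ℝ) ^ (kp * r + kp * m + E * (N * m)) ≤ 2 ^ (2:ℝ) * 2 ^ (kp * r + kp * m + E * (N * m)) :=
          mul_le_mul_of_nonneg_right h5 (two_pos _).le
      _ = 2 ^ (2 + (kp * r + kp * m + E * (N * m))) := (Real.rpow_add _root_.two_pos _ _).symm
      _ ≤ 2 ^ (c * ((1 + E) * n) + r * kp) := by
          refine two_le ?_
          rw [← hn]
          nlinarith
      _ = 2 ^ (c * ((1 + E) * n)) * 2 ^ (r * kp) := Real.rpow_add _root_.two_pos _ _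
  · intro t ht ht1
    have ht0 : 0 < t := hδ0.trans_le ht
    have htδ : 1 ≤ t / δ := by rwa [le_div_iff₀ hδ0, one_mul]
    set r : ℝ := Real.logb 2 (t / δ) with hr
    have hr0 : 0 ≤ r := Real.logb_nonneg one_lt_two htδ
    have hrt : (2:ℝ) ^ r = t / δ := Real.rpow_logb _root_.two_pos (by norm_num) (by linarith)
    have ht2 : t = 2 ^ (r - (1 + E) * n) := by
      rw [sub_eq_add_neg, Real.rpow_add _root_.two_pos, hrt, ← hδ, div_mul_cancel₀ _ hδ0.ne']
    have hr1 : r ≤ (1 + E) * n := by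
      have h4 : (2:ℝ) ^ (r - (1 + E) * n) ≤ 2 ^ (0:ℝ) := by rw [← ht2, Real.rpow_zero]; exact ht1
      have h5 := (Real.rpow_le_rpow_left_iff one_lt_two).1 h4
      linarith
    obtain ⟨Z, hZ1, hZ2⟩ := gcover h hm hkp r hr0
    refine ⟨Z.image fun z : ℤ => (z:ℝ) * δ, ?_, ?_⟩
    · have h4 : (((Z.image fun z : ℤ => (z:ℝ) * δ).card : ℕ) : ℝ) ≤ Z.card := by exact_mod_cast Finset.card_image_le
      refine h4.trans (hZ1.trans ?_)
      rw [hδc, ht2, ← Real.rpow_mul zero_le_two, ← Real.rpow_add _root_.two_pos, ← hn]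
      refine two_le ?_
      have h5 : max (n - r) 0 ≤ (1 + E) * n - r := by
        refine max_le ?_ (by linarith)
        have : 0 ≤ E * n := by positivity
        linarith
      have h6 := mul_le_mul_of_nonneg_left h5 hkp
      nlinarith
    · intro y hy
      obtain ⟨x, hx, rfl⟩ := Finset.mem_image.1 (Finset.mem_coe.1 hy)
      obtain ⟨z, hz, hxz⟩ := hZ2 x hx
      refine ⟨(z:ℝ) * δ, Finset.mem_image.2 ⟨z, hz, rfl⟩, ?_⟩
      rw [Real.dist_eq, ← sub_mul, abs_mul, abs_of_pos hδ0, ← le_div_iff₀ hδ0, ← hrt]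
      exact hxz

open Classical in
/-- the graph of one multiplier -/
theorem img_dns {kp E c n a : ℝ} {X Y : Finset ℤ} {G : Finset (ℤ × ℤ)} {W : Finset ℝ} (hkp : 0 ≤ kp) (hkp1 : kp ≤ 1)
    (hE : 0 < E) (hc : 0 < c) (hn : 0 < n) (h1 : 3 * E ≤ c) (h3 : 12 ≤ c * n)
    (hG : ∀ z ∈ G, z.1 ∈ X ∧ z.2 ∈ Y) (hGc : (2:ℝ) ^ ((2 * kp - E) * n) ≤ (G.card : ℝ))
    (hW : (W.card : ℝ) ≤ (2:ℝ) ^ ((kp + E) * n)) (hGW : ∀ z ∈ G, ∃ w ∈ W, |(z.1 : ℝ) + a * z.2 - w| ≤ (2:ℝ) ^ (E * n)) :
    DnsR kp c (2 ^ (-((1 + E) * n))) a (X.image fun x : ℤ => (x:ℝ) * 2 ^ (-((1 + E) * n)))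
      (Y.image fun x : ℤ => (x:ℝ) * 2 ^ (-((1 + E) * n))) := by
  set δ : ℝ := 2 ^ (-((1 + E) * n)) with hδ
  have hδ0 : 0 < δ := two_pos _
  have hEn' : E * n ≤ c * n / 3 := by
    have := mul_le_mul_of_nonneg_right h1 hn.le
    linarith
  have hEn0 : 0 < E * n := by positivity
  have hcEn : 0 ≤ c * (E * n) := by positivity
  have hinj : Function.Injective fun z : ℤ × ℤ => ((z.1:ℝ) * δ, (z.2:ℝ) * δ) := fun x y hxy => by
    have e1 := mul_right_cancel₀ hδ0.ne' (congrArg Prod.fst hxy)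
    have e2 := mul_right_cancel₀ hδ0.ne' (congrArg Prod.snd hxy)
    exact Prod.ext (by exact_mod_cast e1) (by exact_mod_cast e2)
  refine ⟨G.image fun z : ℤ × ℤ => ((z.1:ℝ) * δ, (z.2:ℝ) * δ), ?_, ?_, ?_⟩
  · intro p hp
    obtain ⟨z, hz, rfl⟩ := Finset.mem_image.1 hp
    exact ⟨Finset.mem_image.2 ⟨z.1, (hG z hz).1, rfl⟩, Finset.mem_image.2 ⟨z.2, (hG z hz).2, rfl⟩⟩
  · rw [Finset.card_image_of_injective _ hinj]
    refine le_trans ?_ hGc
    rw [hδ, ← Real.rpow_mul zero_le_two, ← Real.rpow_mul zero_le_two, ← Real.rpow_add _root_.two_pos,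
      ← Real.rpow_add _root_.two_pos]
    refine two_le ?_
    have h4 : kp * (E * n) ≤ 1 * (E * n) := mul_le_mul_of_nonneg_right hkp1 hEn0.le
    nlinarith
  · set Q : ℤ := ⌈(2:ℝ) ^ (E * n)⌉ with hQ
    have hQ1 : (2:ℝ) ^ (E * n) ≤ Q := Int.le_ceil _
    have hQ2 : (Q : ℝ) < (2:ℝ) ^ (E * n) + 1 := Int.ceil_lt_add_one _
    have hQ0 : 1 ≤ Q := by
      have : 0 < Q := Int.ceil_pos.2 (two_pos _)
      omega
    refine ⟨(W ×ˢ Finset.Icc (-Q - 1) Q).image fun p : ℝ × ℤ => (p.1 + p.2) * δ, ?_, ?_⟩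
    · have h4 : ((((W ×ˢ Finset.Icc (-Q - 1) Q).image fun p : ℝ × ℤ => (p.1 + p.2) * δ).card : ℕ) : ℝ) ≤
          W.card * (2 * Q + 2) := by
        have h5 : ((W ×ˢ Finset.Icc (-Q - 1) Q).image fun p : ℝ × ℤ => (p.1 + p.2) * δ).card ≤
            W.card * (Finset.Icc (-Q - 1) Q).card := Finset.card_image_le.trans (Finset.card_product _ _).le
        rw [Int.card_Icc] at h5
        have h6 : ((Q + 1 - (-Q - 1)).toNat : ℝ) = 2 * Q + 2 := by
          have : ((Q + 1 - (-Q - 1)).toNat : ℤ) = 2 * Q + 2 := by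
            rw [Int.toNat_of_nonneg (by omega)]; ring
          exact_mod_cast this
        rw [← h6]
        exact_mod_cast h5
      refine h4.trans ?_
      have h7 : (1:ℝ) ≤ (2:ℝ) ^ (E * n) := Real.one_le_rpow one_le_two hEn0.le
      have h8 : (2 * (Q:ℝ) + 2) ≤ 2 ^ (3 + E * n) := by
        rw [Real.rpow_add _root_.two_pos]
        norm_num
        linarith
      have h9 : (0:ℝ) ≤ 2 * (Q:ℝ) + 2 := by
        have : (1:ℝ) ≤ Q := by exact_mod_cast hQ0
        linarith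
      calc (W.card : ℝ) * (2 * Q + 2) ≤ 2 ^ ((kp + E) * n) * 2 ^ (3 + E * n) :=
            mul_le_mul hW h8 h9 (two_pos _).le
        _ = 2 ^ ((kp + E) * n + (3 + E * n)) := (Real.rpow_add _root_.two_pos _ _).symm
        _ ≤ δ ^ (-kp - c) := by
            rw [hδ, ← Real.rpow_mul zero_le_two]
            refine two_le ?_
            have h10 : 0 ≤ kp * (E * n) := by positivity
            nlinarith
    · rintro y ⟨p, hp, rfl⟩
      obtain ⟨z, hz, rfl⟩ := Finset.mem_image.1 hp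
      obtain ⟨w, hw, hzw⟩ := hGW z hz
      set d : ℝ := (z.1 : ℝ) + a * z.2 - w with hd
      have h5 := abs_le.1 hzw
      refine ⟨(w + (⌊d⌋ : ℤ)) * δ, Finset.mem_image.2 ⟨(w, ⌊d⌋), Finset.mem_product.2 ⟨hw, ?_⟩, rfl⟩, ?_⟩
      · rw [Finset.mem_Icc]
        constructor
        · have h6 : -Q ≤ ⌊d⌋ := by
            rw [Int.le_floor]
            push_cast
            linarith
          omega
        · have : ((⌊d⌋ : ℤ) : ℝ) ≤ Q := (Int.floor_le _).trans (h5.2.trans hQ1)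
          exact_mod_cast this
      · show dist ((z.1:ℝ) * δ + a * ((z.2:ℝ) * δ)) ((w + (⌊d⌋ : ℤ)) * δ) ≤ δ
        have h6 : (z.1:ℝ) * δ + a * ((z.2:ℝ) * δ) - (w + (⌊d⌋ : ℤ)) * δ = (d - ⌊d⌋) * δ := by
          rw [hd]; ring
        rw [Real.dist_eq, h6, abs_mul, abs_of_pos hδ0]
        refine mul_le_of_le_one_left hδ0.le ?_
        rw [abs_of_nonneg (sub_nonneg.2 (Int.floor_le _))]
        have := Int.lt_floor_add_one d
        linarith

/-- **[RSG]** -/
theorem stRSG (h : StRS) : StRSG := by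
  classical
  intro a b sg ha hab hb hsg
  obtain ⟨c₀, hc₀, δ₀, hδ₀, hR⟩ := rsR h hsg ha hb
  set c : ℝ := min c₀ 1 with hc
  have hc0 : 0 < c := lt_min hc₀ one_pos
  have hcc : c ≤ c₀ := min_le_left _ _
  have hc1 : c ≤ 1 := min_le_right _ _
  set E : ℝ := c / (16 * (1 + sg)) with hE
  have hE0 : 0 < E := by positivity
  have hE1 : 16 * E ≤ c := by
    rw [hE, div_eq_mul_inv, mul_inv]
    have : (1 + sg)⁻¹ ≤ 1 := inv_le_one_of_one_le₀ (by linarith)
    nlinarith
  have hE2 : 16 * (sg * E) ≤ c := by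
    have : sg * E ≤ (1 + sg) * E := by nlinarith
    have h3 : (1 + sg) * E = c / 16 := by
      rw [hE]; field_simp
    linarith
  have hE3 : E ≤ 1 := by linarith
  set N₀ : ℕ := ⌈16 * (1 + sg) / c⌉₊ with hN₀
  refine ⟨E, N₀, hE0, fun N hN hN1 => ?_⟩
  have hNc : 16 * (1 + sg) ≤ c * N := by
    have h1 : 16 * (1 + sg) / c ≤ N := (Nat.le_ceil _).trans (by exact_mod_cast hN)
    rw [div_le_iff₀ hc0] at h1
    linarith
  obtain ⟨x₁, hx₁, hbig⟩ := big (32 * 2 ^ (sg + 1)) (c / 4) (by positivity) (by positivity)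
  set x₂ : ℝ := max x₁ (max (12 / c) (-Real.logb 2 (min δ₀ 1))) with hx₂
  refine ⟨⌈x₂⌉₊ + 1, ?_⟩
  intro m kp hm hkpa hkpb ι X Y J al G W hX hY hJ hal hfr hG
  have hm1 : 0 < m := by omega
  have hm' : (1:ℝ) ≤ m := by exact_mod_cast hm1
  have hN' : (1:ℝ) ≤ N := by exact_mod_cast hN1
  set n : ℝ := N * m with hn
  have hx₂n : x₂ ≤ n := by
    have h1 : x₂ ≤ m := (Nat.le_ceil _).trans (by exact_mod_cast (by omega : ⌈x₂⌉₊ ≤ m))
    have h2 : (1:ℝ) * m ≤ N * m := mul_le_mul_of_nonneg_right hN' (by linarith)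
    linarith
  have hn1 : 1 ≤ n := by
    have : (1:ℝ) ≤ N * m := one_le_mul_of_one_le_of_one_le hN' hm'
    exact this
  have hn0 : 0 < n := by linarith
  have hcn : 12 ≤ c * n := by
    have h1 : 12 / c ≤ n := ((le_max_left _ _).trans (le_max_right _ _)).trans hx₂n
    rw [div_le_iff₀ hc0] at h1
    linarith
  have hkp0 : 0 ≤ kp := by linarith
  have hkp1 : kp ≤ 1 := by linarith
  have hmn : 16 * (1 + sg) * m ≤ c * n := by
    have := mul_le_mul_of_nonneg_right hNc (by linarith : (0:ℝ) ≤ m)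
    rw [hn]
    linarith
  set δ : ℝ := 2 ^ (-((1 + E) * n)) with hδ
  have hδ0 : 0 < δ := two_pos _
  have hEn : 0 < E * n := by positivity
  have hδδ : δ ≤ δ₀ := by
    have h1 : -Real.logb 2 (min δ₀ 1) ≤ n := ((le_max_right _ _).trans (le_max_right _ _)).trans hx₂n
    calc δ ≤ 2 ^ (Real.logb 2 (min δ₀ 1)) := two_le (by linarith)
      _ = min δ₀ 1 := Real.rpow_logb _root_.two_pos (by norm_num) (lt_min hδ₀ one_pos)
      _ ≤ δ₀ := min_le_left _ _
  have hδ1 : δ ≤ 1 := by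
    rw [hδ, ← Real.rpow_zero 2]
    exact two_le (by nlinarith)
  obtain ⟨A, hA1, hA2, hA3⟩ := mult (n := n) (m := (m:ℝ)) hsg hE0 hn0.le (by linarith) N hn J al hJ
    (fun i hi => by
      have := (hal i hi).2
      rwa [mul_assoc] at this) hfr
  refine hR kp ⟨hkpa, hkpb⟩ δ hδ0 hδδ A (X.image fun x : ℤ => (x:ℝ) * δ) (Y.image fun x : ℤ => (x:ℝ) * δ) hA1 ?_ ?_
    ?_ ?_ ?_
  · intro x hx
    obtain ⟨i, hi, rfl⟩ := hA2 x hx
    obtain ⟨h1, h2⟩ := hal i hi
    have h3 : E * n ≤ c₀ * ((1 + E) * n) := by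
      have h4 : E * n ≤ c₀ * n := mul_le_mul_of_nonneg_right (by linarith) hn0.le
      have h5 : 0 ≤ c₀ * (E * n) := by positivity
      linarith
    constructor
    · refine le_trans ?_ h1
      rw [hδ, ← Real.rpow_mul zero_le_two]
      refine two_le ?_
      rw [mul_assoc E]
      linarith
    · refine h2.trans ?_
      rw [hδ, ← Real.rpow_mul zero_le_two]
      refine two_le ?_
      rw [mul_assoc E]
      linarith
  · intro x t ht ht1
    have ht0 : 0 < t := hδ0.trans_le ht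
    refine (hA3 x t ht ht1).trans ?_
    refine mul_le_mul_of_nonneg_right (mul_le_mul_of_nonneg_right ?_ (Real.rpow_nonneg ht0.le _)) (Nat.cast_nonneg _)
    have h1 := hbig n (((le_max_left _ _)).trans hx₂n)
    have h2 : 4 * ((1 + E) * n + 6) ≤ 32 * (n + 1) := by nlinarith
    have h3 : (2:ℝ) ^ (sg * (E * n + 1) + sg * m + E * n) ≤ 2 ^ (sg + 1) * 2 ^ (c / 4 * n) := by
      rw [← Real.rpow_add _root_.two_pos]
      refine two_le ?_
      have h4 : sg * m ≤ c * n / 16 := by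
        have : 0 ≤ (m:ℝ) := by linarith
        linarith
      have h5 : 16 * (sg * E) * n ≤ c * n := mul_le_mul_of_nonneg_right hE2 hn0.le
      have h6 : 16 * E * n ≤ c * n := mul_le_mul_of_nonneg_right hE1 hn0.le
      have h7 : sg * (E * n + 1) = sg * E * n + sg := by ring
      rw [h7]
      linarith
    calc 4 * ((1 + E) * n + 6) * 2 ^ (sg * (E * n + 1) + sg * m + E * n)
        ≤ (32 * (n + 1)) * (2 ^ (sg + 1) * 2 ^ (c / 4 * n)) := mul_le_mul h2 h3 (two_pos _).le (by linarith)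
      _ = (32 * 2 ^ (sg + 1) * (n + 1)) * 2 ^ (c / 4 * n) := by ring
      _ ≤ 2 ^ (c / 4 * n) * 2 ^ (c / 4 * n) := mul_le_mul_of_nonneg_right h1 (two_pos _).le
      _ = 2 ^ (c / 4 * n + c / 4 * n) := (Real.rpow_add _root_.two_pos _ _).symm
      _ ≤ δ ^ (-c₀) := by
          rw [hδ, ← Real.rpow_mul zero_le_two]
          refine two_le ?_
          have h5 : c * n ≤ c₀ * n := mul_le_mul_of_nonneg_right hcc hn0.le
          have h6 : 0 ≤ c₀ * (E * n) := by positivity
          have h7 : 0 ≤ c * n := by positivity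
          have h8 : -((1 + E) * n) * -c₀ = c₀ * n + c₀ * (E * n) := by ring
          rw [h8]
          linarith
  · have h1 := img_reg (c := c₀) hX hm1 hkp0 hkp1 hE0 hc₀ hn (by linarith)
      (by
        have h5 : c * n ≤ c₀ * n := mul_le_mul_of_nonneg_right hcc hn0.le
        have h6 : 0 ≤ sg * m := by positivity
        linarith)
      (by
        have h5 : c * n ≤ c₀ * n := mul_le_mul_of_nonneg_right hcc hn0.le
        linarith)
    exact h1
  · have h1 := img_reg (c := c₀) hY hm1 hkp0 hkp1 hE0 hc₀ hn (by linarith)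
      (by
        have h5 : c * n ≤ c₀ * n := mul_le_mul_of_nonneg_right hcc hn0.le
        have h6 : 0 ≤ sg * m := by positivity
        linarith)
      (by
        have h5 : c * n ≤ c₀ * n := mul_le_mul_of_nonneg_right hcc hn0.le
        linarith)
    exact h1
  · intro x hx
    obtain ⟨i, hi, rfl⟩ := hA2 x hx
    obtain ⟨g1, g2, g3, g4⟩ := hG i hi
    refine img_dns (G := G i) (W := W i) hkp0 hkp1 hE0 hc₀ hn0 (by linarith) ?_ g1 ?_ ?_ ?_
    · have h5 : c * n ≤ c₀ * n := mul_le_mul_of_nonneg_right hcc hn0.le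
      linarith
    · rwa [mul_assoc] at g2
    · rwa [mul_assoc] at g3
    · rwa [mul_assoc] at g4

end Vale.Agent.P076.H200
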